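import Vale.Agent.P092.H466.Pvm

/-!
P092, TEAM D, block [D-PVM] (helper466), second part: the working rules for `pv φ`.
-/

namespace Vale.Agent.P092.H466

open MeasureTheory Topology TopologicalSpace Filter Set
open scoped InnerProductSpace ENNReal NNReal ComplexConjugate

section Rules

variable {X : Type*} [TopologicalSpace X] [CompactSpace X] [MetrizableSpace X]
  [MeasurableSpace X] [BorelSpace X]
  {K : Type*} [NormedAddCommGroup K] [InnerProductSpace ℂ K] [CompleteSpace K]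
  (φ : C(X, ℂ) →⋆ₐ[ℂ] (K →L[ℂ] K))

lemma pv_of_not {A : Set X} (hA : ¬ MeasurableSet A) : pv φ A = 0 := by
  rw [pv, dif_neg hA]

/-- `pv A` is self-adjoint -/
lemma pv_adj (A : Set X) : ContinuousLinearMap.adjoint (pv φ A) = pv φ A := by
  by_cases hA : MeasurableSet A
  · refine ext_quad fun ξ => ?_
    rw [ContinuousLinearMap.adjoint_inner_right, ← inner_conj_symm, inner_pv φ hA,
      Complex.conj_ofReal]
  · rw [pv_of_not φ hA, map_zero]

lemma pv_star (A : Set X) : star (pv φ A) = pv φ A := pv_adj φ A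

lemma inner_pv_left (A : Set X) (x y : K) : ⟪pv φ A x, y⟫_ℂ = ⟪x, pv φ A y⟫_ℂ := by
  conv_rhs => rw [← pv_adj, ContinuousLinearMap.adjoint_inner_right]

lemma pv_idem (A : Set X) : pv φ A * pv φ A = pv φ A := by
  by_cases hA : MeasurableSet A
  · rw [← pv_inter φ hA hA, inter_self]
  · rw [pv_of_not φ hA, mul_zero]

lemma pv_pv (A : Set X) (ξ : K) : pv φ A (pv φ A ξ) = pv φ A ξ := by
  conv_rhs => rw [← pv_idem]
  rfl

lemma pv_comm (A B : Set X) : pv φ A * pv φ B = pv φ B * pv φ A := by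
  by_cases hA : MeasurableSet A
  · by_cases hB : MeasurableSet B
    · rw [← pv_inter φ hA hB, inter_comm, pv_inter φ hB hA]
    · rw [pv_of_not φ hB, mul_zero, zero_mul]
  · rw [pv_of_not φ hA, mul_zero, zero_mul]

lemma pv_disj {A B : Set X} (h : Disjoint A B) : pv φ A * pv φ B = 0 := by
  by_cases hA : MeasurableSet A
  · by_cases hB : MeasurableSet B
    · rw [← pv_inter φ hA hB, h.inter_eq, pv_empty]
    · rw [pv_of_not φ hB, mul_zero]
  · rw [pv_of_not φ hA, zero_mul]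

lemma pv_sub_left {A B : Set X} (hA : MeasurableSet A) (hB : MeasurableSet B) (h : A ⊆ B) :
    pv φ A * pv φ B = pv φ A := by
  rw [← pv_inter φ hA hB, inter_eq_left.2 h]

lemma pv_sub_right {A B : Set X} (hA : MeasurableSet A) (hB : MeasurableSet B) (h : A ⊆ B) :
    pv φ B * pv φ A = pv φ A := by
  rw [← pv_inter φ hB hA, inter_eq_right.2 h]

lemma pv_union {A B : Set X} (hA : MeasurableSet A) (hB : MeasurableSet B) (h : Disjoint A B) :
    pv φ (A ∪ B) = pv φ A + pv φ B :=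
  ext_quad fun ξ => by
    rw [inner_pv φ (hA.union hB), add_apply, inner_add_right, inner_pv φ hA,
      inner_pv φ hB, measureReal_union h hB]
    push_cast; rfl

lemma pv_diff {A B : Set X} (hA : MeasurableSet A) (hB : MeasurableSet B) (h : B ⊆ A) :
    pv φ (A \ B) = pv φ A - pv φ B := by
  rw [eq_sub_iff_add_eq, ← pv_union φ (hA.diff hB) hB disjoint_sdiff_left,
    sdiff_union_of_subset h]

lemma pv_biUnion {ι : Type*} (s : Finset ι) {A : ι → Set X} (hA : ∀ i ∈ s, MeasurableSet (A i))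
    (hd : (s : Set ι).PairwiseDisjoint A) : pv φ (⋃ i ∈ s, A i) = ∑ i ∈ s, pv φ (A i) :=
  ext_quad fun ξ => by
    rw [inner_pv φ (Finset.measurableSet_biUnion s hA), sum_apply, inner_sum,
      measureReal_biUnion_finset hd hA]
    push_cast
    exact Finset.sum_congr rfl fun i hi => (inner_pv φ (hA i hi) ξ).symm

/-- the norm of `pv A ξ` -/
lemma norm_pv_sq {A : Set X} (hA : MeasurableSet A) (ξ : K) :
    ‖pv φ A ξ‖ ^ 2 = (ms φ ξ).real A := by
  refine Complex.ofReal_injective ?_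
  rw [← inner_pv φ hA, ← pv_pv, ← inner_pv_left, inner_self_eq_norm_sq_to_K, pv_pv]
  push_cast; rfl

lemma enorm_pv_sq {A : Set X} (hA : MeasurableSet A) (ξ : K) :
    ‖pv φ A ξ‖ₑ ^ 2 = ms φ ξ A := by
  rw [← ofReal_norm, ← ENNReal.ofReal_pow (norm_nonneg _), norm_pv_sq φ hA,
    Measure.real, ENNReal.ofReal_toReal (measure_ne_top _ _)]

lemma norm_pv_le (A : Set X) (ξ : K) : ‖pv φ A ξ‖ ≤ ‖ξ‖ := by
  by_cases hA : MeasurableSet A
  · refine le_of_sq_le_sq ?_ (norm_nonneg _)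
    rw [norm_pv_sq φ hA, ← ms_univ φ ξ]
    exact measureReal_mono (subset_univ _)
  · rw [pv_of_not φ hA]; simp

lemma norm_pv_mono {A B : Set X} (hB : MeasurableSet B) (h : A ⊆ B) (ξ : K) :
    ‖pv φ A ξ‖ ≤ ‖pv φ B ξ‖ := by
  by_cases hA : MeasurableSet A
  · refine le_of_sq_le_sq ?_ (norm_nonneg _)
    rw [norm_pv_sq φ hA, norm_pv_sq φ hB]
    exact measureReal_mono h
  · rw [pv_of_not φ hA]; simp

/-- disjoint sets: sum of squares -/
lemma sum_norm_pv_sq {ι : Type*} (s : Finset ι) {A : ι → Set X}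
    (hA : ∀ i ∈ s, MeasurableSet (A i)) (hd : (s : Set ι).PairwiseDisjoint A) (ξ : K) :
    ∑ i ∈ s, ‖pv φ (A i) ξ‖ ^ 2 = ‖pv φ (⋃ i ∈ s, A i) ξ‖ ^ 2 := by
  rw [norm_pv_sq φ (Finset.measurableSet_biUnion s hA), measureReal_biUnion_finset hd hA]
  exact Finset.sum_congr rfl fun i hi => norm_pv_sq φ (hA i hi) ξ

lemma sum_norm_pv_sq_le {ι : Type*} (s : Finset ι) {A : ι → Set X}
    (hA : ∀ i ∈ s, MeasurableSet (A i)) (hd : (s : Set ι).PairwiseDisjoint A) (ξ : K) :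
    ∑ i ∈ s, ‖pv φ (A i) ξ‖ ^ 2 ≤ ‖ξ‖ ^ 2 := by
  rw [sum_norm_pv_sq φ s hA hd]
  gcongr
  exact norm_pv_le φ _ _

/-- bounded overlap: every point of `B` is in at most `N` of the sets `A i ⊆ B` -/
lemma sum_norm_pv_sq_overlap {ι : Type*} (s : Finset ι) {A : ι → Set X} {B : Set X}
    (hB : MeasurableSet B) (hA : ∀ i ∈ s, MeasurableSet (A i)) (hAB : ∀ i ∈ s, A i ⊆ B) {N : ℝ}
    (hN : ∀ x ∈ B, ∀ t ⊆ s, (∀ i ∈ t, x ∈ A i) → (t.card : ℝ) ≤ N) (ξ : K) :
    ∑ i ∈ s, ‖pv φ (A i) ξ‖ ^ 2 ≤ N * ‖pv φ B ξ‖ ^ 2 := by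
  classical
  have h1 : ∀ i ∈ s, ‖pv φ (A i) ξ‖ ^ 2 = ∫ x in B, (A i).indicator (fun _ => (1 : ℝ)) x ∂(ms φ ξ) := by
    intro i hi
    rw [norm_pv_sq φ (hA i hi), integral_indicator (hA i hi),
      Measure.restrict_restrict (hA i hi), inter_eq_left.2 (hAB i hi)]
    simp
  rw [Finset.sum_congr rfl h1, ← integral_finsetSum s fun i hi =>
    (integrable_indicator_iff (hA i hi)).2 (integrable_const _).integrableOn, norm_pv_sq φ hB]
  calc ∫ x in B, ∑ i ∈ s, (A i).indicator (fun _ => (1 : ℝ)) x ∂(ms φ ξ)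
      ≤ ∫ x in B, N ∂(ms φ ξ) := by
        refine setIntegral_mono_on ?_ (integrable_const _).integrableOn hB (fun x hx => ?_)
        · exact (integrable_finsetSum s fun i hi =>
            (integrable_indicator_iff (hA i hi)).2 (integrable_const _).integrableOn)
        · have h2 : ∑ i ∈ s, (A i).indicator (fun _ => (1 : ℝ)) x
              = ((s.filter fun i => x ∈ A i).card : ℝ) := by
            rw [Finset.card_filter]
            push_cast
            exact Finset.sum_congr rfl fun i _ => by by_cases hi : x ∈ A i <;> simp [hi]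
          rw [h2]
          exact hN x hx _ (Finset.filter_subset _ _) (fun i hi => (Finset.mem_filter.1 hi).2)
    _ = N * (ms φ ξ).real B := by simp [mul_comm]

/-- `φ` and `pv` commute -/
lemma phi_pv_comm (f : C(X, ℂ)) (A : Set X) : φ f * pv φ A = pv φ A * φ f := by
  by_cases hA : MeasurableSet A
  · refine ext_quad fun ξ => ?_
    have h1 : ⟪ξ, (φ f * pv φ A) ξ⟫_ℂ = ∫ x in A, f x ∂(ms φ ξ) := inner_phi_pv φ hA f ξ
    have h2 : ⟪ξ, (pv φ A * φ f) ξ⟫_ℂ = conj (⟪ξ, φ (star f) (pv φ A ξ)⟫_ℂ) := by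
      rw [inner_conj_symm, ← inner_phi, inner_pv_left]; rfl
    rw [h1, h2, inner_phi_pv φ hA, ← integral_conj]
    refine integral_congr_ae (Eventually.of_forall fun x => ?_)
    simp
  · rw [pv_of_not φ hA, mul_zero, zero_mul]

lemma phi_pv_congr {f g : C(X, ℂ)} {A : Set X} (h : ∀ x ∈ A, f x = g x) :
    φ f * pv φ A = φ g * pv φ A := by
  by_cases hA : MeasurableSet A
  · refine ext_quad fun ξ => ?_
    have h1 : ⟪ξ, (φ f * pv φ A) ξ⟫_ℂ = ∫ x in A, f x ∂(ms φ ξ) := inner_phi_pv φ hA f ξ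
    have h2 : ⟪ξ, (φ g * pv φ A) ξ⟫_ℂ = ∫ x in A, g x ∂(ms φ ξ) := inner_phi_pv φ hA g ξ
    rw [h1, h2]
    exact setIntegral_congr_fun hA h
  · rw [pv_of_not φ hA, mul_zero, mul_zero]

lemma phi_pv_zero {f : C(X, ℂ)} {A : Set X} (h : ∀ x ∈ A, f x = 0) : φ f * pv φ A = 0 := by
  rw [phi_pv_congr φ (g := 0) (fun x hx => by rw [h x hx]; rfl), map_zero, zero_mul]

lemma phi_pv_one {f : C(X, ℂ)} {A : Set X} (h : ∀ x ∈ A, f x = 1) : φ f * pv φ A = pv φ A := by
  rw [phi_pv_congr φ (g := 1) (fun x hx => by rw [h x hx]; rfl), map_one, one_mul]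

lemma pv_phi_one {f : C(X, ℂ)} {A : Set X} (h : ∀ x ∈ A, f x = 1) : pv φ A * φ f = pv φ A := by
  rw [← phi_pv_comm, phi_pv_one φ h]

lemma pv_phi_zero {f : C(X, ℂ)} {A : Set X} (h : ∀ x ∈ A, f x = 0) : pv φ A * φ f = 0 := by
  rw [← phi_pv_comm, phi_pv_zero φ h]

/-- a function which vanishes outside `A` -/
lemma phi_pv_supp {f : C(X, ℂ)} {A : Set X} (hA : MeasurableSet A) (h : ∀ x, x ∉ A → f x = 0) :
    φ f * pv φ A = φ f := by
  have h1 : φ f * pv φ Aᶜ = 0 := phi_pv_zero φ (fun x hx => h x hx)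
  rw [pv_compl φ hA, mul_sub, mul_one, sub_eq_zero] at h1
  exact h1.symm

lemma pv_phi_supp {f : C(X, ℂ)} {A : Set X} (hA : MeasurableSet A) (h : ∀ x, x ∉ A → f x = 0) :
    pv φ A * φ f = φ f := by
  rw [← phi_pv_comm, phi_pv_supp φ hA h]

/-- the norm of `φ f (pv A ξ)` -/
lemma norm_phi_pv_sq {A : Set X} (hA : MeasurableSet A) (f : C(X, ℂ)) (ξ : K) :
    ‖φ f (pv φ A ξ)‖ ^ 2 = ∫ x in A, ‖f x‖ ^ 2 ∂(ms φ ξ) := by
  refine Complex.ofReal_injective ?_
  have h1 : ((‖φ f (pv φ A ξ)‖ ^ 2 : ℝ) : ℂ) = ⟪ξ, φ (star f * f) (pv φ A ξ)⟫_ℂ := by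
    have h0 : ((‖φ f (pv φ A ξ)‖ ^ 2 : ℝ) : ℂ)
        = ⟪φ f (pv φ A ξ), φ f (pv φ A ξ)⟫_ℂ := by
      rw [inner_self_eq_norm_sq_to_K]; push_cast; rfl
    rw [h0, inner_phi, ← inner_conj_symm, ← mul_apply_eq_comp (φ (star f)), ← map_mul]
    have h3 : ⟪pv φ A ξ, φ (star f * f) (pv φ A ξ)⟫_ℂ = ⟪ξ, φ (star f * f) (pv φ A ξ)⟫_ℂ := by
      rw [inner_pv_left, ← mul_apply_eq_comp (pv φ A), ← phi_pv_comm,
        mul_apply_eq_comp, pv_pv]
    rw [h3, inner_phi_pv φ hA, ← integral_conj]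
    refine integral_congr_ae (Eventually.of_forall fun x => ?_)
    simp [mul_comm]
  rw [h1, inner_phi_pv φ hA, ← integral_complex_ofReal]
  refine integral_congr_ae (Eventually.of_forall fun x => ?_)
  show conj (f x) * f x = ((‖f x‖ ^ 2 : ℝ) : ℂ)
  rw [mul_comm, Complex.mul_conj, Complex.normSq_eq_norm_sq]

lemma norm_phi_pv_le {A : Set X} {f : C(X, ℂ)} {c : ℝ} (hc : 0 ≤ c) (h : ∀ x ∈ A, ‖f x‖ ≤ c)
    (ξ : K) : ‖φ f (pv φ A ξ)‖ ≤ c * ‖pv φ A ξ‖ := by
  by_cases hA : MeasurableSet A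
  · refine le_of_sq_le_sq ?_ (by positivity)
    rw [norm_phi_pv_sq φ hA, mul_pow, norm_pv_sq φ hA]
    have hi : IntegrableOn (fun x => ‖f x‖ ^ 2) A (ms φ ξ) :=
      ((((map_continuous f).norm.pow 2).integrable_of_hasCompactSupport
        (HasCompactSupport.of_compactSpace _)) : Integrable _ (ms φ ξ)).integrableOn
    calc ∫ x in A, ‖f x‖ ^ 2 ∂(ms φ ξ) ≤ ∫ _ in A, c ^ 2 ∂(ms φ ξ) := by
          refine setIntegral_mono_on hi (integrable_const _).integrableOn hA (fun x hx => ?_)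
          exact pow_le_pow_left₀ (norm_nonneg _) (h x hx) 2
      _ = c ^ 2 * (ms φ ξ).real A := by simp [mul_comm]
  · rw [pv_of_not φ hA]; simp

lemma norm_phi_le {f : C(X, ℂ)} {c : ℝ} (hc : 0 ≤ c) (h : ∀ x, ‖f x‖ ≤ c) (ξ : K) :
    ‖φ f ξ‖ ≤ c * ‖ξ‖ := by
  have := norm_phi_pv_le φ (A := univ) hc (fun x _ => h x) ξ
  rwa [pv_univ] at this

/-- the spectral measure of `pv A ξ` -/
lemma ms_pv {A : Set X} (hA : MeasurableSet A) (ξ : K) :
    ms φ (pv φ A ξ) = (ms φ ξ).restrict A := by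
  ext B hB
  rw [Measure.restrict_apply hB, ← enorm_pv_sq φ hB, ← enorm_pv_sq φ (hB.inter hA),
    pv_inter φ hB hA]
  rfl

/-- a bounded pointwise limit is a strong limit -/
lemma tendsto_phi_strong {f : ℕ → C(X, ℂ)} {C : ℝ} (hC : ∀ n x, ‖f n x‖ ≤ C) {A : Set X}
    (hA : MeasurableSet A)
    (hf : ∀ x, Tendsto (fun n => f n x) atTop (𝓝 (A.indicator (fun _ => (1 : ℂ)) x))) (ξ : K) :
    Tendsto (fun n => φ (f n) ξ) atTop (𝓝 (pv φ A ξ)) := by
  rw [tendsto_iff_norm_sub_tendsto_zero]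
  -- the square: `‖φ (f n) ξ - pv A ξ‖² = ∫ |f n - 1_A|²`
  have h1 : ∀ n, ‖φ (f n) ξ - pv φ A ξ‖ ^ 2
      = (∫ x in A, ‖(f n - 1) x‖ ^ 2 ∂(ms φ ξ)) + ∫ x in Aᶜ, ‖f n x‖ ^ 2 ∂(ms φ ξ) := by
    intro n
    rw [← norm_phi_pv_sq φ hA, ← norm_phi_pv_sq φ hA.compl]
    have hdec : φ (f n) ξ - pv φ A ξ = φ (f n - 1) (pv φ A ξ) + φ (f n) (pv φ Aᶜ ξ) := by
      rw [pv_compl φ hA, map_sub, map_one]
      simp only [sub_apply, one_apply_eq_self, map_sub]
      abel
    have horth : ⟪φ (f n - 1) (pv φ A ξ), φ (f n) (pv φ Aᶜ ξ)⟫_ℂ = 0 := by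
      have e1 : φ (f n - 1) (pv φ A ξ) = pv φ A (φ (f n - 1) ξ) := by
        rw [← mul_apply_eq_comp (pv φ A), ← phi_pv_comm]; rfl
      rw [e1, inner_pv_left, ← mul_apply_eq_comp (pv φ A), ← phi_pv_comm, mul_apply_eq_comp,
        ← mul_apply_eq_comp (pv φ A), pv_disj φ disjoint_compl_right]
      simp
    rw [hdec, @norm_add_sq ℂ, horth]
    simp
  have h2 : Tendsto (fun n => ‖φ (f n) ξ - pv φ A ξ‖ ^ 2) atTop (𝓝 0) := by
    simp_rw [h1]
    have hb : ∀ n x, ‖f n x‖ ^ 2 ≤ C ^ 2 := fun n x =>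
      pow_le_pow_left₀ (norm_nonneg _) (hC n x) 2
    have t1 : Tendsto (fun n => ∫ x in A, ‖(f n - 1) x‖ ^ 2 ∂(ms φ ξ)) atTop
        (𝓝 (∫ _ in A, (0 : ℝ) ∂(ms φ ξ))) := by
      refine tendsto_integral_of_dominated_convergence (fun _ => (C + 1) ^ 2) (fun n => ?_)
        (integrable_const _) (fun n => Eventually.of_forall fun x => ?_) ?_
      · exact (((map_continuous (f n - 1)).norm.pow 2).measurable).aestronglyMeasurable
      · rw [norm_pow, norm_norm]
        refine pow_le_pow_left₀ (norm_nonneg _) ?_ 2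
        calc ‖(f n - 1) x‖ ≤ ‖f n x‖ + ‖(1 : ℂ)‖ := norm_sub_le _ _
          _ ≤ C + 1 := by rw [norm_one]; exact add_le_add (hC n x) le_rfl
      · refine (ae_restrict_iff' hA).2 (Eventually.of_forall fun x hx => ?_)
        have := ((hf x).sub_const 1).norm.pow 2
        simpa [hx] using this
    have t2 : Tendsto (fun n => ∫ x in Aᶜ, ‖f n x‖ ^ 2 ∂(ms φ ξ)) atTop
        (𝓝 (∫ _ in Aᶜ, (0 : ℝ) ∂(ms φ ξ))) := by
      refine tendsto_integral_of_dominated_convergence (fun _ => C ^ 2) (fun n => ?_)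
        (integrable_const _) (fun n => Eventually.of_forall fun x => ?_) ?_
      · exact (((map_continuous (f n)).norm.pow 2).measurable).aestronglyMeasurable
      · rw [norm_pow, norm_norm]; exact hb n x
      · refine (ae_restrict_iff' hA.compl).2 (Eventually.of_forall fun x hx => ?_)
        have := (hf x).norm.pow 2
        have hx' : x ∉ A := hx
        simpa [hx'] using this
    simpa using t1.add t2
  have h3 := (Real.continuous_sqrt.tendsto 0).comp h2
  simpa [Function.comp_def, Real.sqrt_sq (norm_nonneg _)] using h3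

/-- inner approximation by closed sets -/
lemma exists_closed_approx {A : Set X} (hA : MeasurableSet A) (ξ : K) {ε : ℝ} (hε : 0 < ε) :
    ∃ F ⊆ A, IsClosed F ∧ ‖pv φ A ξ - pv φ F ξ‖ ≤ ε := by
  obtain ⟨F, hFA, hF, h⟩ := hA.exists_isClosed_sdiff_lt (μ := ms φ ξ) (measure_ne_top _ _)
    (ε := ENNReal.ofReal (ε ^ 2)) (by positivity)
  refine ⟨F, hFA, hF, ?_⟩
  have hFm : MeasurableSet F := hF.measurableSet
  rw [← sub_apply, ← pv_diff φ hA hFm hFA]
  refine le_of_sq_le_sq ?_ hε.le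
  rw [norm_pv_sq φ (hA.diff hFm)]
  exact ENNReal.toReal_le_of_le_ofReal (by positivity) h.le

/-- Tonelli for families of spectral projections -/
theorem lintegral_pv {T : Type*} [MeasurableSpace T] (ν : Measure T) [SFinite ν]
    {B : T → Set X} (hB : MeasurableSet {p : T × X | p.2 ∈ B p.1}) (ξ : K) :
    ∫⁻ t, ‖pv φ (B t) ξ‖ₑ ^ 2 ∂ν = ∫⁻ x, ν {t | x ∈ B t} ∂(ms φ ξ) := by
  have h1 : ∀ t, MeasurableSet (B t) := fun t => measurable_prodMk_left hB
  simp_rw [fun t => enorm_pv_sq φ (h1 t) ξ]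
  exact (Measure.prod_apply (μ := ν) (ν := ms φ ξ) hB).symm.trans (Measure.prod_apply_symm hB)

lemma measurable_pv {T : Type*} [MeasurableSpace T]
    {B : T → Set X} (hB : MeasurableSet {p : T × X | p.2 ∈ B p.1}) (ξ : K) :
    Measurable fun t => ‖pv φ (B t) ξ‖ₑ ^ 2 := by
  have h1 : ∀ t, MeasurableSet (B t) := fun t => measurable_prodMk_left hB
  simp_rw [fun t => enorm_pv_sq φ (h1 t) ξ]
  exact measurable_measure_prodMk_left hB

/-- `∫ ‖pv (B t) ξ‖² dν(t) ≤ c ‖pv A ξ‖²` if every `x` is in `B t` for a set of `t` of measure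
at most `c`, and `B t ⊆ A` -/
theorem lintegral_pv_le {T : Type*} [MeasurableSpace T] (ν : Measure T) [SFinite ν]
    {B : T → Set X} (hB : MeasurableSet {p : T × X | p.2 ∈ B p.1}) {A : Set X}
    (hA : MeasurableSet A) (hBA : ∀ t, B t ⊆ A) {c : ℝ≥0∞} (hc : ∀ x ∈ A, ν {t | x ∈ B t} ≤ c)
    (ξ : K) : ∫⁻ t, ‖pv φ (B t) ξ‖ₑ ^ 2 ∂ν ≤ c * ‖pv φ A ξ‖ₑ ^ 2 := by
  rw [lintegral_pv φ ν hB, enorm_pv_sq φ hA]
  calc ∫⁻ x, ν {t | x ∈ B t} ∂(ms φ ξ) ≤ ∫⁻ x, A.indicator (fun _ => c) x ∂(ms φ ξ) := by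
        refine lintegral_mono fun x => ?_
        by_cases hx : x ∈ A
        · simp only [indicator_of_mem hx]; exact hc x hx
        · have : {t | x ∈ B t} = ∅ := by
            ext t; simp only [mem_ofPred_eq, mem_empty_iff_false, iff_false]
            exact fun h => hx (hBA t h)
          rw [this]; simp
    _ = c * ms φ ξ A := by rw [lintegral_indicator hA, lintegral_const]; simp

end Rules

section Two

variable {X : Type*} [TopologicalSpace X] [CompactSpace X] [MetrizableSpace X]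
  [MeasurableSpace X] [BorelSpace X]
  {Y : Type*} [TopologicalSpace Y] [CompactSpace Y] [MetrizableSpace Y]
  [MeasurableSpace Y] [BorelSpace Y]
  {K : Type*} [NormedAddCommGroup K] [InnerProductSpace ℂ K] [CompleteSpace K]
  {K' : Type*} [NormedAddCommGroup K'] [InnerProductSpace ℂ K'] [CompleteSpace K']
  (φ : C(X, ℂ) →⋆ₐ[ℂ] (K →L[ℂ] K)) (ψ : C(Y, ℂ) →⋆ₐ[ℂ] (K' →L[ℂ] K'))

/-- intertwiners -/
theorem pv_intertwine (T : K →L[ℂ] K') (g : C(X, Y))
    (h : ∀ (F : C(Y, ℂ)) (ξ : K), ψ F (T ξ) = T (φ (F.comp g) ξ)) {B : Set Y}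
    (hB : MeasurableSet B) (ξ : K) : pv ψ B (T ξ) = T (pv φ (g ⁻¹' B) ξ) := by
  refine ext_inner_left ℂ (fun η => ?_)
  revert ξ η
  refine MeasurableSpace.induction_on_inter
    (C := fun B _ => ∀ (ξ : K) (η : K'), ⟪η, pv ψ B (T ξ)⟫_ℂ = ⟪η, T (pv φ (g ⁻¹' B) ξ)⟫_ℂ)
    borel_closed isPiSystem_isClosed ?_ ?_ ?_ ?_ B hB
  · intro ξ η; simp [pv_empty]
  · intro F hF ξ η
    have hFm : MeasurableSet F := IsClosed.measurableSet hF
    obtain ⟨u, hu1, hu2⟩ := exists_appr hF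
    have h1 := (wlim_phi ψ hu1 hFm hu2).sesq η (T ξ)
    have h2 := (wlim_phi φ (f := fun n => (u n).comp g) (fun n x => hu1 n (g x))
      (hFm.preimage g.continuous.measurable) (fun x => hu2 (g x))).sesq
        (ContinuousLinearMap.adjoint T η) ξ
    rw [ContinuousLinearMap.adjoint_inner_left] at h2
    refine tendsto_nhds_unique h1 ?_
    refine h2.congr (fun n => ?_)
    rw [ContinuousLinearMap.adjoint_inner_left, h]
  · intro B hB ih ξ η
    rw [pv_compl ψ hB, preimage_compl, pv_compl φ (hB.preimage g.continuous.measurable),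
      sub_apply, sub_apply, one_apply_eq_self, one_apply_eq_self, map_sub, inner_sub_right,
      inner_sub_right, ih]
  · intro s hd hm ih ξ η
    have h1 := (wlim_iUnion ψ hd hm).sesq η (T ξ)
    have h2 := (wlim_iUnion φ (f := fun i => g ⁻¹' (s i))
      (fun i j hij => (hd hij).preimage g)
      (fun i => (hm i).preimage g.continuous.measurable)).sesq
        (ContinuousLinearMap.adjoint T η) ξ
    rw [← preimage_iUnion, ContinuousLinearMap.adjoint_inner_left] at h2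
    refine tendsto_nhds_unique h1 ?_
    refine h2.congr (fun n => ?_)
    rw [ContinuousLinearMap.adjoint_inner_left, sum_apply, sum_apply, map_sum, inner_sum,
      inner_sum]
    exact Finset.sum_congr rfl fun i _ => (ih i ξ η).symm

omit [CompactSpace X] [MeasurableSpace X] [BorelSpace X] in
/-- bump functions -/
lemma exists_bump {F U : Set X} (hF : IsClosed F) (hU : IsOpen U) (hFU : F ⊆ U) :
    ∃ f : C(X, ℝ), (∀ x ∈ F, f x = 1) ∧ tsupport f ⊆ U ∧ ∀ x, 0 ≤ f x ∧ f x ≤ 1 := by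
  obtain ⟨V, hV, hFV, hVU⟩ := normal_exists_closure_subset hF hU hFU
  obtain ⟨f, h0, h1, h2⟩ := exists_continuous_zero_one_of_isClosed hV.isClosed_compl hF
    (disjoint_left.2 fun x hx hx' => hx (hFV hx'))
  refine ⟨f, fun x hx => h1 hx, ?_, fun x => h2 x⟩
  refine (closure_mono ?_).trans hVU
  intro x hx
  by_contra hxV
  exact hx (h0 hxV)

/-- separated supports, closed sets: only continuous functions are used -/
theorem pv_supp_closed {I : Set (X × Y)} (hI : IsClosed I) (T : K' →L[ℂ] K)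
    (h : ∀ (f : C(X, ℂ)) (g : C(Y, ℂ)), Disjoint (tsupport f ×ˢ tsupport g) I →
      ∀ η : K', φ f (T (ψ g η)) = 0) {A : Set X} {B : Set Y} (hA : IsClosed A) (hB : IsClosed B)
    (hAB : Disjoint (A ×ˢ B) I) (η : K') : pv φ A (T (pv ψ B η)) = 0 := by
  obtain ⟨U, V, hU, hV, hAU, hBV, hUV⟩ := generalized_tube_lemma hA.isCompact hB.isCompact
    hI.isOpen_compl (fun p hp hpI => disjoint_left.1 hAB hp hpI)
  obtain ⟨f, hf1, hfU, -⟩ := exists_bump hA hU hAU
  obtain ⟨g, hg1, hgV, -⟩ := exists_bump hB hV hBV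
  have hf : pv φ A * φ (toC f) = pv φ A :=
    pv_phi_one φ (fun x hx => by simp [hf1 x hx])
  have hg : φ (toC f) (T (ψ (toC g) (pv ψ B η))) = 0 := by
    refine h _ _ ?_ _
    refine disjoint_left.2 fun p hp hpI => hUV (a := p) ⟨?_, ?_⟩ hpI
    · refine hfU (closure_mono ?_ hp.1)
      intro x hx hx'
      exact hx (by simp [hx'])
    · refine hgV (closure_mono ?_ hp.2)
      intro x hx hx'
      exact hx (by simp [hx'])
  have hg' : ψ (toC g) (pv ψ B η) = pv ψ B η := by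
    rw [← mul_apply_eq_comp, phi_pv_one ψ (fun x hx => by simp [hg1 x hx])]
  rw [hg'] at hg
  rw [← hf, mul_apply_eq_comp, hg, map_zero]

/-- separated supports, Borel sets -/
theorem pv_supp {I : Set (X × Y)} (hI : IsClosed I) (T : K' →L[ℂ] K)
    (h : ∀ (f : C(X, ℂ)) (g : C(Y, ℂ)), Disjoint (tsupport f ×ˢ tsupport g) I →
      ∀ η : K', φ f (T (ψ g η)) = 0) {A : Set X} {B : Set Y} (hAB : Disjoint (A ×ˢ B) I)
    (η : K') : pv φ A (T (pv ψ B η)) = 0 := by
  by_cases hA : MeasurableSet A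
  swap
  · rw [pv_of_not φ hA]; rfl
  by_cases hB : MeasurableSet B
  swap
  · rw [pv_of_not ψ hB]; simp
  rw [← norm_le_zero_iff]
  refine le_of_forall_pos_le_add fun ε hε => ?_
  rw [zero_add]
  obtain ⟨G, hGB, hG, h1⟩ := exists_closed_approx ψ hB η (ε := ε / (2 * (‖T‖ + 1)))
    (by positivity)
  obtain ⟨F, hFA, hF, h2⟩ := exists_closed_approx φ hA (T (pv ψ G η)) (ε := ε / 2)
    (by positivity)
  have h3 := pv_supp_closed φ ψ hI T h hF hG
    (hAB.mono_left (prod_mono hFA hGB)) η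
  have e : pv φ A (T (pv ψ B η)) = pv φ A (T (pv ψ B η - pv ψ G η))
      + (pv φ A (T (pv ψ G η)) - pv φ F (T (pv ψ G η))) := by
    rw [h3, map_sub, map_sub]; abel
  rw [e]
  calc _ ≤ ‖pv φ A (T (pv ψ B η - pv ψ G η))‖
        + ‖pv φ A (T (pv ψ G η)) - pv φ F (T (pv ψ G η))‖ := norm_add_le _ _
    _ ≤ ‖T‖ * (ε / (2 * (‖T‖ + 1))) + ε / 2 := by
        refine add_le_add ?_ h2
        exact (norm_pv_le φ _ _).trans ((T.le_opNorm _).trans (by gcongr))
    _ ≤ ε := by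
        have : ‖T‖ * (ε / (2 * (‖T‖ + 1))) ≤ ε / 2 := by
          rw [mul_div_assoc', div_le_div_iff₀ (by positivity) (by norm_num)]
          nlinarith [norm_nonneg T]
        linarith

end Two

section One

variable {X : Type*} [TopologicalSpace X] [CompactSpace X] [MetrizableSpace X]
  [MeasurableSpace X] [BorelSpace X]
  {Y : Type*} [TopologicalSpace Y] [CompactSpace Y] [MetrizableSpace Y]
  [MeasurableSpace Y] [BorelSpace Y]
  {K : Type*} [NormedAddCommGroup K] [InnerProductSpace ℂ K] [CompleteSpace K]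
  (φ : C(X, ℂ) →⋆ₐ[ℂ] (K →L[ℂ] K)) (ψ : C(Y, ℂ) →⋆ₐ[ℂ] (K →L[ℂ] K))

/-- operators commuting with `φ` commute with `pv φ` -/
theorem pv_commute {T : K →L[ℂ] K} (h : ∀ f : C(X, ℂ), T * φ f = φ f * T) (A : Set X) :
    T * pv φ A = pv φ A * T := by
  by_cases hA : MeasurableSet A
  · ext ξ
    exact (pv_intertwine φ φ T (ContinuousMap.id X)
      (fun F η => by
        have := DFunLike.congr_fun (h F) η
        simpa using this.symm) hA ξ).symm
  · rw [pv_of_not φ hA, mul_zero, zero_mul]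

/-- commuting calculi have commuting spectral projections -/
theorem pv_pv_comm (h : ∀ (f : C(X, ℂ)) (g : C(Y, ℂ)), φ f * ψ g = ψ g * φ f)
    (A : Set X) (B : Set Y) : pv φ A * pv ψ B = pv ψ B * pv φ A :=
  pv_commute ψ (fun g => (pv_commute φ (fun f => (h f g).symm) A).symm) B

omit [CompactSpace X] [MetrizableSpace X] [MeasurableSpace X] [BorelSpace X] in
theorem phi_pv_comm' (h : ∀ (f : C(X, ℂ)) (g : C(Y, ℂ)), φ f * ψ g = ψ g * φ f)
    (f : C(X, ℂ)) (B : Set Y) : φ f * pv ψ B = pv ψ B * φ f :=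
  pv_commute ψ (fun g => h f g) B

/-- covariance -/
theorem pv_cov {U V : K →L[ℂ] K} (hUV : U * V = 1) (hVU : V * U = 1) (g : X ≃ₜ X)
    (h : ∀ f : C(X, ℂ), U * φ f * V = φ (f.comp ⟨g.symm, g.symm.continuous⟩)) (A : Set X) :
    U * pv φ A * V = pv φ (g '' A) := by
  have key : ∀ ξ, pv φ (g '' A) (U ξ) = U (pv φ A ξ) := by
    intro ξ
    by_cases hA : MeasurableSet A
    · have hgA : MeasurableSet (g '' A) := (g.toMeasurableEquiv.measurableSet_image).2 hA
      have h1 := pv_intertwine φ φ U ⟨g, g.continuous⟩ (fun F η => ?_) hgA ξ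
      · rw [h1]
        congr 3
        exact preimage_image_eq A g.injective
      · have h2 := h (F.comp ⟨g, g.continuous⟩)
        have h3 : (F.comp ⟨g, g.continuous⟩).comp ⟨g.symm, g.symm.continuous⟩ = F := by
          ext x; simp
        rw [h3] at h2
        rw [← h2, mul_assoc, mul_apply_eq_comp, mul_apply_eq_comp, ← mul_apply_eq_comp V, hVU]
        rfl
    · have hgA : ¬ MeasurableSet (g '' A) := fun h' =>
        hA ((g.toMeasurableEquiv.measurableSet_image).1 h')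
      rw [pv_of_not φ hA, pv_of_not φ hgA]; simp
  ext ξ
  rw [mul_assoc, mul_apply_eq_comp, mul_apply_eq_comp, ← key, ← mul_apply_eq_comp U, hUV]
  rfl

end One

end Vale.Agent.P092.H466
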