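import Mathlib

/-!
P092, TEAM D, block [D-PVM] (helper466).
The Borel projection valued measure `pv φ` of a unital *-homomorphism
`φ : C(X, ℂ) →⋆ₐ[ℂ] (K →L[ℂ] K)`, `X` compact metrizable, `K` a complex Hilbert space
(Riesz-Markov + a π-λ argument).
-/

namespace Vale.Agent.P092.H466

open MeasureTheory Topology TopologicalSpace Filter Set
open scoped InnerProductSpace ENNReal NNReal ComplexConjugate CompactlySupported
  BoundedContinuousFunction

section Weak

variable {K : Type*} [NormedAddCommGroup K] [InnerProductSpace ℂ K]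

/-- polarization -/
lemma polar (T : K →L[ℂ] K) (x y : K) :
    ⟪x, T y⟫_ℂ = (⟪x + y, T (x + y)⟫_ℂ - ⟪x - y, T (x - y)⟫_ℂ
      - Complex.I * ⟪x + Complex.I • y, T (x + Complex.I • y)⟫_ℂ
      + Complex.I * ⟪x - Complex.I • y, T (x - Complex.I • y)⟫_ℂ) / 4 := by
  simp only [map_add, map_sub, map_smul, inner_add_left, inner_add_right, inner_sub_left,
    inner_sub_right, inner_smul_left, inner_smul_right, Complex.conj_I]
  have hI : Complex.I * Complex.I = -1 := Complex.I_mul_I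
  linear_combination (1/2 : ℂ) * ⟪x, T y⟫_ℂ * hI - (1/2 : ℂ) * ⟪y, T x⟫_ℂ * hI

lemma ext_quad {S T : K →L[ℂ] K} (h : ∀ x, ⟪x, S x⟫_ℂ = ⟪x, T x⟫_ℂ) : S = T := by
  ext y
  refine ext_inner_left ℂ (fun x => ?_)
  rw [polar S, polar T, h, h, h, h]

/-- weak convergence of operators, quadratic form -/
def WLim (T : ℕ → K →L[ℂ] K) (S : K →L[ℂ] K) : Prop :=
  ∀ x, Tendsto (fun n => ⟪x, T n x⟫_ℂ) atTop (𝓝 ⟪x, S x⟫_ℂ)

lemma WLim.sesq {T : ℕ → K →L[ℂ] K} {S : K →L[ℂ] K} (h : WLim T S) (x y : K) :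
    Tendsto (fun n => ⟪x, T n y⟫_ℂ) atTop (𝓝 ⟪x, S y⟫_ℂ) := by
  have e : (fun n => ⟪x, T n y⟫_ℂ) = fun n => _ := funext fun n => polar (T n) x y
  rw [e, polar S]
  exact ((((h _).sub (h _)).sub ((h _).const_mul _)).add ((h _).const_mul _)).div_const _

lemma WLim.mk' {T : ℕ → K →L[ℂ] K} {S : K →L[ℂ] K}
    (h : ∀ x y, Tendsto (fun n => ⟪x, T n y⟫_ℂ) atTop (𝓝 ⟪x, S y⟫_ℂ)) : WLim T S :=
  fun x => h x x

lemma WLim.unique {T : ℕ → K →L[ℂ] K} {S S' : K →L[ℂ] K} (h : WLim T S) (h' : WLim T S') :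
    S = S' :=
  ext_quad fun x => tendsto_nhds_unique (h x) (h' x)

lemma WLim.mul_right {T : ℕ → K →L[ℂ] K} {S : K →L[ℂ] K} (h : WLim T S) (R : K →L[ℂ] K) :
    WLim (fun n => T n * R) (S * R) :=
  fun x => h.sesq x (R x)

variable [CompleteSpace K]

lemma WLim.mul_left {T : ℕ → K →L[ℂ] K} {S : K →L[ℂ] K} (h : WLim T S) (R : K →L[ℂ] K) :
    WLim (fun n => R * T n) (R * S) := by
  intro x
  have := h.sesq (ContinuousLinearMap.adjoint R x) x
  simpa [ContinuousLinearMap.adjoint_inner_left] using this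

/-- bounded operators whose quadratic forms converge have a weak limit -/
lemma exists_wlim {T : ℕ → K →L[ℂ] K} {C : ℝ} (hC : ∀ n, ‖T n‖ ≤ C) {q : K → ℂ}
    (hq : ∀ x, Tendsto (fun n => ⟪x, T n x⟫_ℂ) atTop (𝓝 (q x))) :
    ∃ S : K →L[ℂ] K, ∀ x, ⟪x, S x⟫_ℂ = q x := by
  have hlim : ∀ x y, ∃ z, Tendsto (fun n => ⟪x, T n y⟫_ℂ) atTop (𝓝 z) := by
    intro x y
    refine ⟨(q (x + y) - q (x - y) - Complex.I * q (x + Complex.I • y)
        + Complex.I * q (x - Complex.I • y)) / 4, ?_⟩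
    · have e : (fun n => ⟪x, T n y⟫_ℂ) = fun n => _ := funext fun n => polar (T n) x y
      rw [e]
      exact ((((hq _).sub (hq _)).sub ((hq _).const_mul _)).add ((hq _).const_mul _)).div_const _
  choose B hB using hlim
  have hC0 : 0 ≤ C := (norm_nonneg _).trans (hC 0)
  -- `f x y = lim ⟪T n x, y⟫`
  let f : K →ₗ⋆[ℂ] K →ₗ[ℂ] ℂ := LinearMap.mk₂'ₛₗ (starRingEnd ℂ) (RingHom.id ℂ)
    (fun x y => conj (B y x))
    (fun x x' y => by
      rw [← map_add]; congr 1
      refine tendsto_nhds_unique (hB y (x + x')) ?_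
      simpa [inner_add_right] using (hB y x).add (hB y x'))
    (fun c x y => by
      rw [smul_eq_mul, ← map_mul]; congr 1
      refine tendsto_nhds_unique (hB y (c • x)) ?_
      simpa [inner_smul_right] using (hB y x).const_mul c)
    (fun x y y' => by
      rw [← map_add]; congr 1
      refine tendsto_nhds_unique (hB (y + y') x) ?_
      simpa [inner_add_left] using (hB y x).add (hB y' x))
    (fun c x y => by
      have : B (c • y) x = conj c * B y x := by
        refine tendsto_nhds_unique (hB (c • y) x) ?_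
        simpa [inner_smul_left, mul_comm] using (hB y x).const_mul (conj c)
      rw [this, map_mul, Complex.conj_conj]; rfl)
  have hf : ∀ x y, ‖f x y‖ ≤ C * ‖x‖ * ‖y‖ := by
    intro x y
    show ‖conj (B y x)‖ ≤ _
    rw [RCLike.norm_conj]
    refine le_of_tendsto (hB y x).norm (Eventually.of_forall fun n => ?_)
    calc ‖⟪y, T n x⟫_ℂ‖ ≤ ‖y‖ * ‖T n x‖ := norm_inner_le_norm _ _
      _ ≤ ‖y‖ * (C * ‖x‖) := by
        gcongr
        exact ((T n).le_opNorm x).trans (by gcongr; exact hC n)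
      _ = C * ‖x‖ * ‖y‖ := by ring
  let F : K →L⋆[ℂ] K →L[ℂ] ℂ := f.mkContinuous₂ C hf
  refine ⟨InnerProductSpace.continuousLinearMapOfBilin F, fun x => ?_⟩
  have h1 : ⟪InnerProductSpace.continuousLinearMapOfBilin F x, x⟫_ℂ = F x x :=
    InnerProductSpace.continuousLinearMapOfBilin_apply F x x
  have h2 : F x x = conj (B x x) := rfl
  rw [← inner_conj_symm, h1, h2, Complex.conj_conj]
  exact tendsto_nhds_unique (hB x x) (hq x)

omit [CompleteSpace K] in
/-- a bound of the quadratic form bounds the norm -/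
lemma norm_le_of_quad {T : K →L[ℂ] K} (h : ∀ x, ‖⟪x, T x⟫_ℂ‖ ≤ ‖x‖ ^ 2) : ‖T‖ ≤ 2 := by
  refine T.opNorm_le_bound (by norm_num) (fun y => ?_)
  have key : ∀ x : K, ‖x‖ = ‖y‖ → ‖⟪x, T y⟫_ℂ‖ ≤ 2 * ‖y‖ ^ 2 := by
    intro x hx
    rw [polar T x y, norm_div]
    have h4 : ‖(4 : ℂ)‖ = 4 := by norm_num
    rw [h4, div_le_iff₀ (by norm_num)]
    have a1 := h (x + y)
    have a2 := h (x - y)
    have a3 := h (x + Complex.I • y)
    have a4 := h (x - Complex.I • y)
    have p1 := parallelogram_law_with_norm ℂ x y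
    have p2 := parallelogram_law_with_norm ℂ x (Complex.I • y)
    have hI : ‖Complex.I • y‖ = ‖y‖ := by rw [norm_smul, Complex.norm_I, one_mul]
    rw [hI] at p2
    calc _ ≤ ‖⟪x + y, T (x + y)⟫_ℂ‖ + ‖⟪x - y, T (x - y)⟫_ℂ‖
          + ‖⟪x + Complex.I • y, T (x + Complex.I • y)⟫_ℂ‖
          + ‖⟪x - Complex.I • y, T (x - Complex.I • y)⟫_ℂ‖ := by
          refine (norm_add_le _ _).trans ?_
          refine add_le_add ((norm_sub_le _ _).trans (add_le_add (norm_sub_le _ _) ?_)) ?_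
          · rw [norm_mul, Complex.norm_I, one_mul]
          · rw [norm_mul, Complex.norm_I, one_mul]
      _ ≤ 2 * ‖y‖ ^ 2 * 4 := by rw [hx] at p1 p2; linarith
  by_cases hT : T y = 0
  · rw [hT, norm_zero]; positivity
  have hTy : 0 < ‖T y‖ := norm_pos_iff.2 hT
  by_cases hy : y = 0
  · exact absurd (by rw [hy, map_zero]) hT
  have hy' : 0 < ‖y‖ := norm_pos_iff.2 hy
  have := key (((‖y‖ / ‖T y‖ : ℝ) : ℂ) • T y) (by
    rw [norm_smul, Complex.norm_real, Real.norm_of_nonneg (by positivity)]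
    field_simp)
  rw [inner_smul_left, norm_mul, RCLike.norm_conj, Complex.norm_real,
    Real.norm_of_nonneg (by positivity), inner_self_eq_norm_sq_to_K, norm_pow] at this
  have e : ‖((‖T y‖ : ℝ) : ℂ)‖ = ‖T y‖ := by
    rw [Complex.norm_real, Real.norm_of_nonneg (norm_nonneg _)]
  have this' : ‖y‖ / ‖T y‖ * ‖T y‖ ^ 2 ≤ 2 * ‖y‖ ^ 2 := by
    rw [← e]; simpa using this
  have : ‖y‖ * ‖T y‖ ≤ 2 * ‖y‖ ^ 2 := by
    calc ‖y‖ * ‖T y‖ = ‖y‖ / ‖T y‖ * ‖T y‖ ^ 2 := by field_simp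
      _ ≤ _ := this'
  nlinarith

end Weak

section Meas

variable {X : Type*} [TopologicalSpace X]
  {K : Type*} [NormedAddCommGroup K] [InnerProductSpace ℂ K] [CompleteSpace K]
  (φ : C(X, ℂ) →⋆ₐ[ℂ] (K →L[ℂ] K))

/-- a real continuous function as a complex one -/
def toC (f : C(X, ℝ)) : C(X, ℂ) := ⟨fun x => (f x : ℂ), by fun_prop⟩

@[simp] lemma toC_apply (f : C(X, ℝ)) (x : X) : toC f x = (f x : ℂ) := rfl

lemma star_phi (f : C(X, ℂ)) : ContinuousLinearMap.adjoint (φ f) = φ (star f) := by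
  rw [map_star]; rfl

lemma star_toC (f : C(X, ℝ)) : star (toC f) = toC f := by
  ext x; simp

lemma inner_phi (f : C(X, ℂ)) (x y : K) : ⟪x, φ f y⟫_ℂ = ⟪φ (star f) x, y⟫_ℂ := by
  rw [← star_phi, ContinuousLinearMap.adjoint_inner_left]

lemma phi_pos {f : C(X, ℝ)} (hf : ∀ x, 0 ≤ f x) (ξ : K) : 0 ≤ (⟪ξ, φ (toC f) ξ⟫_ℂ).re := by
  let g : C(X, ℂ) := toC ⟨fun x => Real.sqrt (f x), by fun_prop⟩
  have h : toC f = star g * g := by
    ext x
    show (f x : ℂ) = conj ((Real.sqrt (f x) : ℝ) : ℂ) * ((Real.sqrt (f x) : ℝ) : ℂ)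
    rw [Complex.conj_ofReal, ← Complex.ofReal_mul, Real.mul_self_sqrt (hf x)]
  rw [h, map_mul, mul_apply_eq_comp, inner_phi, star_star]
  exact inner_self_nonneg (𝕜 := ℂ)

lemma phi_im (f : C(X, ℝ)) (ξ : K) : (⟪ξ, φ (toC f) ξ⟫_ℂ).im = 0 := by
  rw [← Complex.conj_eq_iff_im, inner_conj_symm]
  conv_rhs => rw [inner_phi, star_toC]

lemma phi_re (f : C(X, ℝ)) (ξ : K) :
    ⟪ξ, φ (toC f) ξ⟫_ℂ = (((⟪ξ, φ (toC f) ξ⟫_ℂ).re : ℝ) : ℂ) := by
  apply Complex.ext
  · simp
  · simp [phi_im]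

variable [CompactSpace X] [MetrizableSpace X] [MeasurableSpace X] [BorelSpace X]

/-- the positive functional of a vector -/
noncomputable def fnl (ξ : K) : C_c(X, ℝ) →ₚ[ℝ] ℝ :=
  PositiveLinearMap.mk₀
    { toFun := fun f => (⟪ξ, φ (toC f.toContinuousMap) ξ⟫_ℂ).re
      map_add' := fun f g => by
        have : toC (f + g).toContinuousMap = toC f.toContinuousMap + toC g.toContinuousMap := by
          ext x
          show ((f x + g x : ℝ) : ℂ) = (f x : ℂ) + (g x : ℂ)
          push_cast; ring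
        rw [this, map_add, add_apply, inner_add_right, Complex.add_re]
      map_smul' := fun c f => by
        have : toC (c • f).toContinuousMap = (c : ℂ) • toC f.toContinuousMap := by
          ext x
          show ((c * f x : ℝ) : ℂ) = (c : ℂ) * (f x : ℂ)
          push_cast; ring
        rw [this, map_smul, smul_apply, inner_smul_right,
          Complex.re_ofReal_mul]
        rfl }
    (fun f hf => phi_pos φ (fun x => hf x) ξ)

/-- the spectral measure of a vector -/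
noncomputable def ms (ξ : K) : Measure X := RealRMK.rieszMeasure (fnl φ ξ)

instance (ξ : K) : IsFiniteMeasure (ms φ ξ) := by unfold ms; infer_instance

instance (ξ : K) : (ms φ ξ).Regular := by unfold ms; infer_instance

lemma integral_ms_real (f : C(X, ℝ)) (ξ : K) :
    ∫ x, f x ∂(ms φ ξ) = (⟪ξ, φ (toC f) ξ⟫_ℂ).re :=
  RealRMK.integral_rieszMeasure (fnl φ ξ) ⟨f, HasCompactSupport.of_compactSpace _⟩

lemma integrable_ms (f : C(X, ℂ)) (ξ : K) : Integrable f (ms φ ξ) :=
  f.continuous.integrable_of_hasCompactSupport (HasCompactSupport.of_compactSpace _)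

/-- the spectral measure represents the calculus -/
theorem integral_ms (f : C(X, ℂ)) (ξ : K) : ∫ x, f x ∂(ms φ ξ) = ⟪ξ, φ f ξ⟫_ℂ := by
  let a : C(X, ℝ) := ⟨fun x => (f x).re, by fun_prop⟩
  let b : C(X, ℝ) := ⟨fun x => (f x).im, by fun_prop⟩
  have hf : f = toC a + Complex.I • toC b := by
    ext x
    show f x = ((f x).re : ℂ) + Complex.I * ((f x).im : ℂ)
    rw [mul_comm]; exact (Complex.re_add_im _).symm
  have h1 : ∫ x, f x ∂(ms φ ξ) = (∫ x, a x ∂(ms φ ξ) : ℝ) + Complex.I * (∫ x, b x ∂(ms φ ξ) : ℝ) := by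
    rw [← integral_complex_ofReal, ← integral_complex_ofReal, ← integral_const_mul,
      ← integral_add]
    · refine integral_congr_ae (Eventually.of_forall fun x => ?_)
      exact (by rw [mul_comm]; exact (Complex.re_add_im _).symm :
        f x = ((f x).re : ℂ) + Complex.I * ((f x).im : ℂ))
    · exact integrable_ms φ (toC a) ξ
    · exact (integrable_ms φ (toC b) ξ).const_mul _
  rw [h1, integral_ms_real, integral_ms_real, ← phi_re, ← phi_re]
  conv_rhs => rw [hf]
  rw [map_add, map_smul, add_apply, smul_apply,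
    inner_add_right, inner_smul_right]

lemma ms_univ (ξ : K) : (ms φ ξ).real univ = ‖ξ‖ ^ 2 := by
  have h := integral_ms φ (1 : C(X, ℂ)) ξ
  have h1 : ∫ x, (1 : C(X, ℂ)) x ∂(ms φ ξ) = ((ms φ ξ).real univ : ℂ) := by
    simp
  rw [h1, map_one, one_apply_eq_self, inner_self_eq_norm_sq_to_K] at h
  refine Complex.ofReal_injective ?_
  rw [h]; push_cast; rfl

/-- bounded pointwise limits -/
lemma tendsto_phi {f : ℕ → C(X, ℂ)} {C : ℝ} (hC : ∀ n x, ‖f n x‖ ≤ C) {A : Set X}
    (hA : MeasurableSet A)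
    (hf : ∀ x, Tendsto (fun n => f n x) atTop (𝓝 (A.indicator (fun _ => (1 : ℂ)) x))) (ξ : K) :
    Tendsto (fun n => ⟪ξ, φ (f n) ξ⟫_ℂ) atTop (𝓝 ((ms φ ξ).real A : ℂ)) := by
  have h1 : ((ms φ ξ).real A : ℂ) = ∫ x, A.indicator (fun _ => (1 : ℂ)) x ∂(ms φ ξ) := by
    rw [integral_indicator hA]; simp
  have h2 : (fun n => ⟪ξ, φ (f n) ξ⟫_ℂ) = fun n => ∫ x, f n x ∂(ms φ ξ) :=
    funext fun n => (integral_ms φ (f n) ξ).symm
  rw [h1, h2]
  refine tendsto_integral_of_dominated_convergence (fun _ => C) (fun n => ?_)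
    (integrable_const C) (fun n => Eventually.of_forall fun x => hC n x)
    (Eventually.of_forall fun x => hf x)
  exact (integrable_ms φ (f n) ξ).aestronglyMeasurable

omit [CompactSpace X] [MeasurableSpace X] [BorelSpace X] in
/-- the indicator of a closed set is a bounded pointwise limit of continuous functions -/
lemma exists_appr {F : Set X} (hF : IsClosed F) : ∃ f : ℕ → C(X, ℂ), (∀ n x, ‖f n x‖ ≤ 1) ∧
    ∀ x, Tendsto (fun n => f n x) atTop (𝓝 (F.indicator (fun _ => (1 : ℂ)) x)) := by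
  refine ⟨fun n => ⟨fun x => (((hF.apprSeq n x : ℝ≥0) : ℝ) : ℂ), by fun_prop⟩, ?_, ?_⟩
  · intro n x
    show ‖(((hF.apprSeq n x : ℝ≥0) : ℝ) : ℂ)‖ ≤ 1
    rw [Complex.norm_real, Real.norm_of_nonneg (NNReal.coe_nonneg _)]
    exact_mod_cast HasOuterApproxClosed.apprSeq_apply_le_one hF n x
  · intro x
    have h := (tendsto_pi_nhds.1 (HasOuterApproxClosed.tendsto_apprSeq hF)) x
    have h2 : F.indicator (fun _ => (1 : ℂ)) x
        = (((F.indicator (fun _ => (1 : ℝ≥0)) x : ℝ≥0) : ℝ) : ℂ) := by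
      by_cases hx : x ∈ F <;> simp [hx]
    rw [h2]
    exact (Complex.continuous_ofReal.tendsto _).comp
      ((NNReal.continuous_coe.tendsto _).comp h)

omit [CompactSpace X] [MetrizableSpace X] in
lemma borel_closed : (inferInstance : MeasurableSpace X) =
    MeasurableSpace.generateFrom {F : Set X | IsClosed F} := by
  rw [‹BorelSpace X›.measurable_eq, borel_eq_generateFrom_isClosed]

omit [TopologicalSpace X] [CompactSpace X] [MetrizableSpace X] [BorelSpace X] in
lemma tendsto_real_iUnion {f : ℕ → Set X} (hd : Pairwise (Function.onFun Disjoint f))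
    (hm : ∀ i, MeasurableSet (f i)) (μ : Measure X) [IsFiniteMeasure μ] :
    Tendsto (fun n => ∑ i ∈ Finset.range n, μ.real (f i)) atTop (𝓝 (μ.real (⋃ i, f i))) := by
  have h : HasSum (fun i => μ.real (f i)) (μ.real (⋃ i, f i)) := by
    have h1 := measure_iUnion hd hm (μ := μ)
    have h2 : ∑' i, μ (f i) ≠ ∞ := by rw [← h1]; exact measure_ne_top _ _
    have h3 := ENNReal.hasSum_toReal h2
    rw [← ENNReal.tsum_toReal_eq (fun i => measure_ne_top _ _), ← h1] at h3
    exact h3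
  exact h.tendsto_sum_nat

lemma exists_pv {A : Set X} (hA : MeasurableSet A) :
    ∃ S : K →L[ℂ] K, ∀ ξ, ⟪ξ, S ξ⟫_ℂ = ((ms φ ξ).real A : ℂ) := by
  refine MeasurableSpace.induction_on_inter
    (C := fun A _ => ∃ S : K →L[ℂ] K, ∀ ξ, ⟪ξ, S ξ⟫_ℂ = ((ms φ ξ).real A : ℂ))
    borel_closed isPiSystem_isClosed ?_ ?_ ?_ ?_ A hA
  · exact ⟨0, fun ξ => by simp⟩
  · intro F hF
    obtain ⟨f, hf1, hf2⟩ := exists_appr hF
    refine exists_wlim (T := fun n => φ (f n)) (C := 2) (fun n => ?_)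
      (fun ξ => tendsto_phi φ hf1 (IsClosed.measurableSet hF) hf2 ξ)
    refine norm_le_of_quad (fun ξ => ?_)
    rw [← integral_ms]
    calc ‖∫ x, f n x ∂(ms φ ξ)‖ ≤ 1 * (ms φ ξ).real univ :=
          norm_integral_le_of_norm_le_const (Eventually.of_forall fun x => hf1 n x)
      _ = ‖ξ‖ ^ 2 := by rw [ms_univ, one_mul]
  · rintro A hA ⟨S, hS⟩
    refine ⟨1 - S, fun ξ => ?_⟩
    rw [sub_apply, one_apply_eq_self, inner_sub_right, hS,
      measureReal_compl hA, ms_univ, inner_self_eq_norm_sq_to_K]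
    push_cast; rfl
  · intro f hd hm h
    choose S hS using h
    have hs : ∀ n ξ, ⟪ξ, (∑ i ∈ Finset.range n, S i) ξ⟫_ℂ
        = ((∑ i ∈ Finset.range n, (ms φ ξ).real (f i) : ℝ) : ℂ) := by
      intro n ξ
      rw [sum_apply, inner_sum]
      push_cast
      exact Finset.sum_congr rfl fun i _ => hS i ξ
    refine exists_wlim (T := fun n => ∑ i ∈ Finset.range n, S i) (C := 2) (fun n => ?_)
      (fun ξ => ?_)
    · refine norm_le_of_quad (fun ξ => ?_)
      rw [hs, Complex.norm_real, Real.norm_of_nonneg (by positivity),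
        ← ms_univ φ ξ, ← measureReal_biUnion_finset (fun i _ j _ hij => hd hij)
          (fun i _ => hm i)]
      exact measureReal_mono (subset_univ _)
    · simp_rw [hs]
      exact (Complex.continuous_ofReal.tendsto _).comp (tendsto_real_iUnion hd hm _)

open Classical in
/-- the Borel projection valued measure of `φ` -/
noncomputable def pv (A : Set X) : K →L[ℂ] K :=
  if hA : MeasurableSet A then (exists_pv φ hA).choose else 0

lemma inner_pv {A : Set X} (hA : MeasurableSet A) (ξ : K) :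
    ⟪ξ, pv φ A ξ⟫_ℂ = ((ms φ ξ).real A : ℂ) := by
  rw [pv, dif_pos hA]; exact (exists_pv φ hA).choose_spec ξ

lemma pv_empty : pv φ (∅ : Set X) = 0 :=
  ext_quad fun ξ => by rw [inner_pv φ MeasurableSet.empty]; simp

lemma pv_univ : pv φ (univ : Set X) = 1 :=
  ext_quad fun ξ => by
    rw [inner_pv φ MeasurableSet.univ, ms_univ, one_apply_eq_self, inner_self_eq_norm_sq_to_K]
    push_cast; rfl

lemma pv_compl {A : Set X} (hA : MeasurableSet A) : pv φ Aᶜ = 1 - pv φ A :=
  ext_quad fun ξ => by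
    rw [sub_apply, one_apply_eq_self, inner_sub_right, inner_pv φ hA, inner_pv φ hA.compl,
      measureReal_compl hA, ms_univ, inner_self_eq_norm_sq_to_K]
    push_cast; rfl

lemma wlim_phi {f : ℕ → C(X, ℂ)} {C : ℝ} (hC : ∀ n x, ‖f n x‖ ≤ C) {A : Set X}
    (hA : MeasurableSet A)
    (hf : ∀ x, Tendsto (fun n => f n x) atTop (𝓝 (A.indicator (fun _ => (1 : ℂ)) x))) :
    WLim (fun n => φ (f n)) (pv φ A) := by
  intro ξ
  rw [inner_pv φ hA]
  exact tendsto_phi φ hC hA hf ξ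

lemma wlim_iUnion {f : ℕ → Set X} (hd : Pairwise (Function.onFun Disjoint f))
    (hm : ∀ i, MeasurableSet (f i)) :
    WLim (fun n => ∑ i ∈ Finset.range n, pv φ (f i)) (pv φ (⋃ i, f i)) := by
  intro ξ
  rw [inner_pv φ (MeasurableSet.iUnion hm)]
  have hs : ∀ n, ⟪ξ, (∑ i ∈ Finset.range n, pv φ (f i)) ξ⟫_ℂ
      = ((∑ i ∈ Finset.range n, (ms φ ξ).real (f i) : ℝ) : ℂ) := by
    intro n
    rw [sum_apply, inner_sum]
    push_cast
    exact Finset.sum_congr rfl fun i _ => inner_pv φ (hm i) ξ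
  simp_rw [hs]
  exact (Complex.continuous_ofReal.tendsto _).comp (tendsto_real_iUnion hd hm _)

/-- `φ f` times `pv B` -/
lemma inner_phi_pv {B : Set X} (hB : MeasurableSet B) (f : C(X, ℂ)) (ξ : K) :
    ⟪ξ, φ f (pv φ B ξ)⟫_ℂ = ∫ x in B, f x ∂(ms φ ξ) := by
  revert f ξ
  refine MeasurableSpace.induction_on_inter
    (C := fun B _ => ∀ (f : C(X, ℂ)) (ξ : K), ⟪ξ, φ f (pv φ B ξ)⟫_ℂ = ∫ x in B, f x ∂(ms φ ξ))
    borel_closed isPiSystem_isClosed ?_ ?_ ?_ ?_ B hB
  · intro f ξ; simp [pv_empty]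
  · intro F hF f ξ
    have hFm : MeasurableSet F := IsClosed.measurableSet hF
    obtain ⟨g, hg1, hg2⟩ := exists_appr hF
    have h1 := ((wlim_phi φ hg1 hFm hg2).mul_left (φ f)) ξ
    refine tendsto_nhds_unique h1 ?_
    have h2 : (fun n => ⟪ξ, (φ f * φ (g n)) ξ⟫_ℂ) = fun n => ∫ x, f x * g n x ∂(ms φ ξ) :=
      funext fun n => by rw [← map_mul, ← integral_ms]; rfl
    rw [h2, ← integral_indicator hFm]
    refine tendsto_integral_of_dominated_convergence (fun _ => ‖f‖) (fun n => ?_)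
      (integrable_const _) (fun n => Eventually.of_forall fun x => ?_)
      (Eventually.of_forall fun x => ?_)
    · exact (integrable_ms φ (f * g n) ξ).aestronglyMeasurable
    · rw [norm_mul]
      calc ‖f x‖ * ‖g n x‖ ≤ ‖f‖ * 1 := by
            gcongr
            · exact f.norm_coe_le_norm x
            · exact hg1 n x
        _ = ‖f‖ := mul_one _
    · have := (hg2 x).const_mul (f x)
      have e : F.indicator (fun x => f x) x = f x * F.indicator (fun _ => (1 : ℂ)) x := by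
        by_cases hx : x ∈ F <;> simp [hx]
      rw [e]; exact this
  · intro B hB ih f ξ
    rw [pv_compl φ hB, sub_apply, one_apply_eq_self, map_sub, inner_sub_right, ih,
      ← integral_ms, ← integral_add_compl hB (integrable_ms φ f ξ)]
    ring
  · intro s hd hm ih f ξ
    have h1 := ((wlim_iUnion φ hd hm).mul_left (φ f)) ξ
    refine tendsto_nhds_unique h1 ?_
    have h2 : (fun n => ⟪ξ, (φ f * ∑ i ∈ Finset.range n, pv φ (s i)) ξ⟫_ℂ)
        = fun n => ∑ i ∈ Finset.range n, ∫ x in s i, f x ∂(ms φ ξ) := by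
      funext n
      rw [Finset.mul_sum, sum_apply, inner_sum]
      exact Finset.sum_congr rfl fun i _ => ih i f ξ
    rw [h2]
    exact (hasSum_integral_iUnion hm hd (integrable_ms φ f ξ).integrableOn).tendsto_sum_nat

/-- multiplicativity -/
theorem pv_inter {A B : Set X} (hA : MeasurableSet A) (hB : MeasurableSet B) :
    pv φ (A ∩ B) = pv φ A * pv φ B := by
  refine ext_quad fun ξ => ?_
  rw [inner_pv φ (hA.inter hB)]
  revert ξ
  refine MeasurableSpace.induction_on_inter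
    (C := fun A _ => ∀ (ξ : K), ((ms φ ξ).real (A ∩ B) : ℂ) = ⟪ξ, (pv φ A * pv φ B) ξ⟫_ℂ)
    borel_closed isPiSystem_isClosed ?_ ?_ ?_ ?_ A hA
  · intro ξ; simp [pv_empty]
  · intro F hF ξ
    have hFm : MeasurableSet F := IsClosed.measurableSet hF
    obtain ⟨g, hg1, hg2⟩ := exists_appr hF
    have h1 := ((wlim_phi φ hg1 hFm hg2).mul_right (pv φ B)) ξ
    refine tendsto_nhds_unique ?_ h1
    have h2 : (fun n => ⟪ξ, (φ (g n) * pv φ B) ξ⟫_ℂ) = fun n => ∫ x in B, g n x ∂(ms φ ξ) :=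
      funext fun n => inner_phi_pv φ hB (g n) ξ
    have h3 : ((ms φ ξ).real (F ∩ B) : ℂ)
        = ∫ x in B, F.indicator (fun _ => (1 : ℂ)) x ∂(ms φ ξ) := by
      rw [integral_indicator hFm, Measure.restrict_restrict hFm]; simp
    rw [h2, h3]
    refine tendsto_integral_of_dominated_convergence (fun _ => (1 : ℝ)) (fun n => ?_)
      (integrable_const _) (fun n => Eventually.of_forall fun x => hg1 n x)
      (Eventually.of_forall fun x => hg2 x)
    exact ((integrable_ms φ (g n) ξ).integrableOn).aestronglyMeasurable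
  · intro A hA ih ξ
    rw [pv_compl φ hA, sub_mul, one_mul, sub_apply, inner_sub_right, ← ih, inner_pv φ hB]
    have := measureReal_inter_add_sdiff (μ := ms φ ξ) (s := B) hA
    have e : Aᶜ ∩ B = B \ A := by ext x; simp [and_comm]
    rw [e, inter_comm A B, ← this]
    push_cast; ring
  · intro s hd hm ih ξ
    have h1 := ((wlim_iUnion φ hd hm).mul_right (pv φ B)) ξ
    refine tendsto_nhds_unique ?_ h1
    have h2 : (fun n => ⟪ξ, ((∑ i ∈ Finset.range n, pv φ (s i)) * pv φ B) ξ⟫_ℂ)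
        = fun n => ((∑ i ∈ Finset.range n, (ms φ ξ).real (s i ∩ B) : ℝ) : ℂ) := by
      funext n
      rw [Finset.sum_mul, sum_apply, inner_sum]
      push_cast
      exact Finset.sum_congr rfl fun i _ => (ih i ξ).symm
    rw [h2, iUnion_inter]
    exact (Complex.continuous_ofReal.tendsto _).comp
      (tendsto_real_iUnion (fun i j hij => (hd hij).mono inter_subset_left inter_subset_left)
        (fun i => (hm i).inter hB) _)

end Meas

end Vale.Agent.P092.H466
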